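import Vale.Agent.P267.H431.LB6
import Vale.Agent.P267.H995.Frame

/-!
P267, LIFT: every line bundle on the finite cyclic cover has an integral nerve cocycle
(field `ex` of `LiftIn`).
-/

set_option autoImplicit false
set_option linter.unusedSectionVars false

open scoped Manifold ContDiff ComplexConjugate
open Set hiding pair_comm
open Vale.Agent.P267.FL Vale.Agent.P267.H158 Vale.Agent.P267.RR Vale.Agent.P267.BlockC
  Vale.Agent.P267.XT Vale.Agent.P267.H368 Vale.Agent.P267.H995

noncomputable section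

namespace Vale.Agent.P267.H431

/-- a zigzag of the curvature with periods in `2πi ℤ` -/
def IntZig {X : Type*} [TopologicalSpace X] [ChartedSpace C2 X] {κ : Type} [Fintype κ]
    [DecidableEq κ] {ι : Type*} (U : ι → Set X) (L : LB X κ) : Prop :=
  ∃ (Z : Zig U L.curv) (n : ι → ι → ι → ℤ), IsCoc U n ∧
    Z.r = fun a b c => 2 * Real.pi * Complex.I * n a b c

theorem IntZig.comp {X : Type*} [TopologicalSpace X] [ChartedSpace C2 X] {κ : Type} [Fintype κ]
    [DecidableEq κ] {ι ι' : Type*} {U : ι → Set X} {L : LB X κ} (H : IntZig U L) (c : ι' → ι)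
    {V : ι' → Set X} (h : ∀ a, V a ⊆ U (c a)) : IntZig V L := by
  obtain ⟨Z, n, hn, hr⟩ := H
  refine ⟨Z.comp c h, fun a b d => n (c a) (c b) (c d), fun a b d e x h1 h2 h3 h4 =>
    hn _ _ _ _ x (h a h1) (h b h2) (h d h3) (h e h4), ?_⟩
  funext a b d
  change Z.r (c a) (c b) (c d) = _
  rw [hr]

namespace CycCover

variable {X : Type} [TopologicalSpace X] [ChartedSpace C2 X] [IsManifold 𝓘(ℂ, C2) ω X]
  {h : C(X, UnitAddCircle)} {F : Type*} [NormedAddCommGroup F] [InnerProductSpace ℝ F]
  {A : C2 ≃L[ℝ] F} {G : GoodCover X A} (D : CycCover G h)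

theorem nv_of_intZig (P : PartUnity G) (m : ℕ) [NeZero m] (L : ALB (CovM h m))
    (H : IntZig (fun a : Fin G.n × ZMod m => D.UM m a.1 a.2) L.L) : ∃ z, D.Nv P m L z := by
  obtain ⟨Z, n, hn, hr⟩ := H
  refine ⟨_, n, hn, ?_, rfl⟩
  have h1 := Zig.exact (S := (D.sqM P m).toPart) Z
  have h2 : (D.sqM P m).toPart.W Z.r =
      (2 * Real.pi * Complex.I : ℂ) • (D.sqM P m).toPart.W fun a b c => (n a b c : ℂ) := by
    rw [hr, ← Part.W_smul]
  rw [h2] at h1
  rw [neg_smul, sub_neg_eq_add]
  exact h1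

/-- **every line bundle on the finite cyclic cover has an integral nerve cocycle** -/
theorem exists_nv (P : PartUnity G) (m : ℕ) [NeZero m] (L : ALB (CovM h m)) :
    ∃ z, D.Nv P m L z := by
  rcases isEmpty_or_nonempty X with hX | hX
  · have hE : IsEmpty (CovM h m) := ⟨fun w => hX.false (CovM.p w)⟩
    refine ⟨_, 0, fun a b c d x => (hE.false x).elim, ?_, rfl⟩
    have h0 : ∀ F : TwoF (CovM h m), F = 0 := fun F => twoF_ext fun x => (hE.false x).elim
    rw [h0 (_ - _)]
    exact Exact2.zero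
  · refine D.nv_of_intZig P m L (IntZig.comp (U := (D.goodCoverM m).U)
      (exists_zig L.L (goodFam (D.goodCoverM m))) (idx G.n m).symm fun a => ?_)
    have h1 := D.goodCoverM_U (m := m) ((idx G.n m).symm a)
    rw [Equiv.apply_symm_apply] at h1
    exact h1.symm.subset

end CycCover

end Vale.Agent.P267.H431
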