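import Vale.Agent.P267.H431.LB1
import Vale.Agent.P267.H158.Inst
import Vale.Agent.P267.H399.Calc3
import Vale.Agent.P267.H533.Bump

/-!
# P267, package LIFT-LB (helper431), part 2: the partitions of unity by squares on the finite and on
the infinite cyclic cover, the second one being trivial at both ends
-/

set_option linter.unusedSectionVars false

open Set Filter Topology Metric Function
open scoped Manifold ContDiff

noncomputable section

namespace Vale.Agent.P267.H431

open Vale.Agent.P267.H368 Vale.Agent.P267.H158 Vale.Agent.P267.H82 Vale.Agent.P267.H995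
  Vale.Agent.P267.FL Vale.Agent.P267.H533

theorem rsm_of_contMDiff {M : Type*} [TopologicalSpace M] [ChartedSpace C2 M]
    [IsManifold 𝓘(ℂ, C2) ω M] {f : M → ℝ} (hf : ContMDiff 𝓘(ℝ, C2) 𝓘(ℝ, ℝ) ∞ f) : RSm f := by
  rw [rsm_iff, ← contMDiff_iff_reg0]
  have h1 : ContMDiff 𝓘(ℝ, ℝ) 𝓘(ℝ, ℂ) ∞ (fun r : ℝ => (r : ℂ)) :=
    Complex.ofRealCLM.contDiff.contMDiff
  exact h1.comp hf

variable {F : Type*} [NormedAddCommGroup F] [InnerProductSpace ℝ F] {X : Type*}
  [TopologicalSpace X] [ChartedSpace C2 X] {A : C2 ≃L[ℝ] F}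

namespace CycCover

variable {G : GoodCover X A} {h : C(X, UnitAddCircle)} (D : CycCover G h)

section heights

/-- the bound of the oscillation of the height on the sheets -/
def hb : ℝ := |D.exists_height_bound.choose|

theorem hb_nonneg : 0 ≤ D.hb := abs_nonneg _

theorem height_le {i : Fin G.n} {k : ℤ} {z : Cov h} (hz : z ∈ D.S i k) : |Cov.f z - k| ≤ D.hb :=
  (D.exists_height_bound.choose_spec i k z hz).trans (le_abs_self _)

/-- the height of a finite set of indices -/
def ht (s : Finset (Fin G.n × ℤ)) : ℝ := ((s.sup fun a => a.2.natAbs : ℕ) : ℝ) + D.hb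

theorem ht_nonneg (s : Finset (Fin G.n × ℤ)) : 0 ≤ D.ht s :=
  add_nonneg (Nat.cast_nonneg _) D.hb_nonneg

theorem abs_f_le {s : Finset (Fin G.n × ℤ)} {a : Fin G.n × ℤ} (ha : a ∈ s) {z : Cov h}
    (hz : z ∈ D.S a.1 a.2) : |Cov.f z| ≤ D.ht s := by
  have h1 := D.height_le hz
  have h2 : a.2.natAbs ≤ s.sup fun a => a.2.natAbs :=
    Finset.le_sup (f := fun a : Fin G.n × ℤ => a.2.natAbs) ha
  have h3 : |(a.2 : ℝ)| ≤ ((s.sup fun a => a.2.natAbs : ℕ) : ℝ) := by
    have h4 : (a.2.natAbs : ℝ) ≤ ((s.sup fun a => a.2.natAbs : ℕ) : ℝ) := by exact_mod_cast h2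
    rwa [Nat.cast_natAbs, Int.cast_abs] at h4
  have h5 : |Cov.f z| ≤ |Cov.f z - a.2| + |(a.2 : ℝ)| := by
    have := abs_add_le (Cov.f z - a.2) (a.2 : ℝ)
    rwa [sub_add_cancel] at this
  unfold ht
  linarith

/-- half-width of the window outside of which the partition is trivial -/
def nn (s : Finset (Fin G.n × ℤ)) : ℕ := ⌈D.ht s + 1 + D.hb⌉₊

/-- the window -/
def wnd (s : Finset (Fin G.n × ℤ)) : Finset (Fin G.n × ℤ) :=
  Finset.univ ×ˢ Finset.Icc (-(D.nn s : ℤ)) (D.nn s)

theorem mem_wnd {s : Finset (Fin G.n × ℤ)} {a : Fin G.n × ℤ} :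
    a ∈ D.wnd s ↔ |a.2| ≤ D.nn s := by
  unfold wnd
  rw [Finset.mem_product, Finset.mem_Icc, abs_le]
  simp

/-- the radius outside of which the line bundles are trivial -/
def rr (s : Finset (Fin G.n × ℤ)) : ℝ := D.nn s + D.hb + 1

variable (P : PartUnity G)

/-- a smooth function which is `0` on the support of the cochain and `1` at both ends -/
def tt (s : Finset (Fin G.n × ℤ)) (z : Cov h) : ℝ := 1 - ∑ a ∈ D.wnd s, P.ρL D.sheets a z

theorem tt_eq_zero {s : Finset (Fin G.n × ℤ)} {z : Cov h} (hz : |Cov.f z| < D.ht s + 1) :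
    D.tt P s z = 0 := by
  unfold tt
  rw [P.sum_ρL D.sheets z (D.wnd s), sub_self]
  intro a ha
  rw [D.mem_wnd]
  have h1 := D.height_le (show z ∈ D.S a.1 a.2 from ha)
  have h2 : |(a.2 : ℝ)| ≤ D.ht s + 1 + D.hb := by
    have h3 : |(a.2 : ℝ)| ≤ |(a.2 : ℝ) - Cov.f z| + |Cov.f z| := by
      have := abs_add_le ((a.2 : ℝ) - Cov.f z) (Cov.f z)
      rwa [sub_add_cancel] at this
    rw [abs_sub_comm] at h3
    linarith
  have h4 : ((|a.2| : ℤ) : ℝ) ≤ ((D.nn s : ℤ) : ℝ) := by
    rw [Int.cast_abs]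
    refine h2.trans ?_
    exact_mod_cast Nat.le_ceil _
  exact_mod_cast h4

theorem tt_eq_one {s : Finset (Fin G.n × ℤ)} {z : Cov h} (hz : D.rr s ≤ |Cov.f z|) :
    D.tt P s z = 1 := by
  unfold tt
  rw [Finset.sum_eq_zero, sub_zero]
  intro a ha
  rw [D.mem_wnd] at ha
  refine D.sheets.lift_of_notMem _ fun hmem => ?_
  have h1 := D.height_le (show z ∈ D.S a.1 a.2 from hmem)
  have h2 : |Cov.f z| ≤ |Cov.f z - a.2| + |(a.2 : ℝ)| := by
    have := abs_add_le (Cov.f z - a.2) (a.2 : ℝ)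
    rwa [sub_add_cancel] at this
  have h3 : |(a.2 : ℝ)| ≤ D.nn s := by
    have : ((|a.2| : ℤ) : ℝ) ≤ ((D.nn s : ℤ) : ℝ) := by exact_mod_cast ha
    rw [Int.cast_abs] at this
    exact_mod_cast this
  unfold rr at hz
  linarith

theorem ht_le_rr (s : Finset (Fin G.n × ℤ)) : D.ht s + 1 ≤ D.rr s := by
  unfold rr nn
  have h1 := Nat.le_ceil (D.ht s + 1 + D.hb)
  have h2 := D.hb_nonneg
  linarith

theorem rr_nonneg (s : Finset (Fin G.n × ℤ)) : 0 ≤ D.rr s := by
  have h1 := D.ht_le_rr s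
  have h2 := D.ht_nonneg s
  linarith

end heights

section parts

variable [IsManifold 𝓘(ℂ, C2) ω X] (P : PartUnity G) {m : ℕ} [NeZero m]

theorem rsm_φL (a : Fin G.n × ℤ) : RSm (P.φL D.sheets a) :=
  rsm_of_contMDiff (P.φL_smooth D.sheets Cov.isLocalHomeomorph_p a)

theorem rsm_ρL (a : Fin G.n × ℤ) : RSm (P.ρL D.sheets a) :=
  rsm_of_contMDiff (P.ρL_smooth D.sheets Cov.isLocalHomeomorph_p a)

theorem rsm_φLM (α : Fin G.n × ZMod m) : RSm (P.φL (D.sheetsM m) α) :=
  rsm_of_contMDiff (P.φL_smooth (D.sheetsM m) CovM.isLocalHomeomorph_p α)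

/-- the partition of unity by squares on the `m`-fold cover -/
def sqM (m : ℕ) [NeZero m] : SqPart (CovM h m) (Fin G.n × ZMod m) where
  U α := D.UM m α.1 α.2
  isOpen α := (D.sheetsM m).isOpen_U CovM.continuous_p _ _
  φ := P.φL (D.sheetsM m)
  smooth α := (D.rsm_φLM P α).reg
  supp α := P.tsupport_φL (D.sheetsM m) CovM.continuous_p α
  sum x := P.sum_φL_sq (D.sheetsM m) x Finset.univ fun a _ => Finset.mem_univ a

/-- the part of `φ i` which is outside of the sheets with index in `s` -/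
def φout (s : Finset (Fin G.n × ℤ)) (i : Fin G.n) (z : Cov h) : ℝ :=
  P.φ i (Cov.p z) - ∑ a ∈ s with a.1 = i, P.φL D.sheets a z

theorem φout_sq (s : Finset (Fin G.n × ℤ)) (i : Fin G.n) (z : Cov h) :
    D.φout P s i z ^ 2 = P.φ i (Cov.p z) ^ 2 - ∑ a ∈ s with a.1 = i, P.φL D.sheets a z ^ 2 := by
  by_cases hz : ∃ k, z ∈ D.S i k
  · obtain ⟨k, hk⟩ := hz
    have h0 : ∀ a : Fin G.n × ℤ, a.1 = i → a ≠ (i, k) → P.φL D.sheets a z = 0 := by
      rintro ⟨j, l⟩ hj hne
      change j = i at hj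
      subst hj
      exact D.sheets.lift_of_notMem _ fun hmem =>
        hne (Prod.ext rfl (D.sheets.eq_of_mem hmem hk))
    have hv : P.φL D.sheets (i, k) z = P.φ i (Cov.p z) := D.sheets.lift_of_mem _ hk
    by_cases hs : (i, k) ∈ s
    · have hmem : (i, k) ∈ s.filter (fun a => a.1 = i) := Finset.mem_filter.2 ⟨hs, rfl⟩
      have h1 : ∑ a ∈ s with a.1 = i, P.φL D.sheets a z = P.φ i (Cov.p z) := by
        rw [Finset.sum_eq_single_of_mem _ hmem, hv]
        intro b hb hne
        exact h0 b (Finset.mem_filter.1 hb).2 hne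
      have h2 : ∑ a ∈ s with a.1 = i, P.φL D.sheets a z ^ 2 = P.φ i (Cov.p z) ^ 2 := by
        rw [Finset.sum_eq_single_of_mem _ hmem, hv]
        intro b hb hne
        rw [h0 b (Finset.mem_filter.1 hb).2 hne]
        exact zero_pow two_ne_zero
      rw [φout, h1, h2, sub_self, sub_self]
      exact zero_pow two_ne_zero
    · have hne : ∀ a ∈ s.filter (fun a => a.1 = i), P.φL D.sheets a z = 0 := by
        intro a ha
        rw [Finset.mem_filter] at ha
        refine h0 a ha.2 ?_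
        rintro rfl
        exact hs ha.1
      have h1 : ∑ a ∈ s with a.1 = i, P.φL D.sheets a z = 0 := Finset.sum_eq_zero hne
      have h2 : ∑ a ∈ s with a.1 = i, P.φL D.sheets a z ^ 2 = 0 :=
        Finset.sum_eq_zero fun a ha => by rw [hne a ha]; exact zero_pow two_ne_zero
      rw [φout, h1, h2, sub_zero, sub_zero]
  · have hW : Cov.p z ∉ D.W i := fun hmem => hz (D.sheets.exists_mem_S hmem)
    have hv : P.φ i (Cov.p z) = 0 := by
      by_contra hne
      exact hW (P.supp_sub_W' D.sheets i hne)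
    have h0 : ∀ a ∈ s.filter (fun a => a.1 = i), P.φL D.sheets a z = 0 := by
      rintro ⟨j, l⟩ ha
      rw [Finset.mem_filter] at ha
      obtain ⟨-, hj⟩ := ha
      change j = i at hj
      subst hj
      exact D.sheets.lift_of_notMem _ fun hmem => hz ⟨l, hmem⟩
    have h1 : ∑ a ∈ s with a.1 = i, P.φL D.sheets a z = 0 := Finset.sum_eq_zero h0
    have h2 : ∑ a ∈ s with a.1 = i, P.φL D.sheets a z ^ 2 = 0 :=
      Finset.sum_eq_zero fun a ha => by rw [h0 a ha]; exact zero_pow two_ne_zero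
    rw [φout, h1, h2, hv]
    ring

theorem sum_φout_sq (s : Finset (Fin G.n × ℤ)) (z : Cov h) :
    ∑ i, D.φout P s i z ^ 2 = 1 - ∑ a ∈ s, P.φL D.sheets a z ^ 2 := by
  simp only [D.φout_sq]
  rw [Finset.sum_sub_distrib, P.sum_sq]
  congr 1
  exact Finset.sum_fiberwise_of_maps_to (g := Prod.fst) (t := Finset.univ)
    (fun a _ => Finset.mem_univ a.1) _

theorem rsm_comp_p {u : X → ℝ} (hu : ContMDiff 𝓘(ℝ, C2) 𝓘(ℝ, ℝ) ∞ u) :
    RSm (fun z : Cov h => u (Cov.p z)) :=
  rsm_of_contMDiff (hu.comp (Cov.contMDiff_p 𝓘(ℝ, C2)))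

theorem rsm_φout (s : Finset (Fin G.n × ℤ)) (i : Fin G.n) : RSm (D.φout P s i) :=
  (rsm_comp_p (P.smooth' i)).sub (RSm.sum _ fun a _ => D.rsm_φL P a)

/-- the open set which contains the support of `φout s i` -/
def Uout (s : Finset (Fin G.n × ℤ)) (i : Fin G.n) : Set (Cov h) :=
  ⋃ k ∈ {k : ℤ | (i, k) ∉ s}, D.U i k

theorem mem_Uout {s : Finset (Fin G.n × ℤ)} {i : Fin G.n} {z : Cov h} :
    z ∈ D.Uout s i ↔ ∃ k : ℤ, (i, k) ∉ s ∧ z ∈ D.U i k := by
  unfold Uout
  rw [mem_iUnion₂]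
  simp only [exists_prop]
  rfl

theorem isOpen_Uout (s : Finset (Fin G.n × ℤ)) (i : Fin G.n) : IsOpen (D.Uout s i) :=
  isOpen_biUnion fun k _ => D.sheets.isOpen_U Cov.continuous_p i k

theorem tsupport_φout (s : Finset (Fin G.n × ℤ)) (i : Fin G.n) :
    tsupport (D.φout P s i) ⊆ D.Uout s i := by
  intro z hz
  have h1 : Cov.p z ∈ G.U i := by
    refine P.tsupp' i ?_
    have h2 : tsupport (D.φout P s i) ⊆ Cov.p ⁻¹' tsupport (P.φ i) := by
      refine closure_minimal ?_ ((isClosed_tsupport _).preimage Cov.continuous_p)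
      intro w hw
      refine subset_tsupport _ ?_
      rw [mem_support] at hw ⊢
      intro h0
      apply hw
      unfold φout
      rw [h0, zero_sub, neg_eq_zero]
      refine Finset.sum_eq_zero ?_
      rintro ⟨j, l⟩ ha
      rw [Finset.mem_filter] at ha
      obtain ⟨-, hj⟩ := ha
      change j = i at hj
      subst hj
      unfold PartUnity.φL
      by_cases hmem : w ∈ D.S j l
      · rw [D.sheets.lift_of_mem _ hmem]
        exact h0
      · exact D.sheets.lift_of_notMem _ hmem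
    exact h2 hz
  obtain ⟨k, hk⟩ := D.sheets.exists_mem_S (D.U_sub_W i h1)
  rw [D.mem_Uout]
  refine ⟨k, fun hs => ?_, hk, h1⟩
  have h3 : D.φout P s i =ᶠ[𝓝 z] 0 := by
    filter_upwards [(D.isOpen_S i k).mem_nhds hk] with w hw
    have hmem : (i, k) ∈ s.filter (fun a => a.1 = i) := Finset.mem_filter.2 ⟨hs, rfl⟩
    unfold φout
    rw [Finset.sum_eq_single_of_mem _ hmem]
    · unfold PartUnity.φL
      rw [D.sheets.lift_of_mem _ hw, sub_self]
      rfl
    · rintro ⟨j, l⟩ ha hne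
      rw [Finset.mem_filter] at ha
      obtain ⟨-, hj⟩ := ha
      change j = i at hj
      subst hj
      exact D.sheets.lift_of_notMem _ fun hmem =>
        hne (Prod.ext rfl (D.sheets.eq_of_mem hmem hw))
  exact (notMem_tsupport_iff_eventuallyEq.2 h3) hz

theorem rsm_tt (s : Finset (Fin G.n × ℤ)) : RSm (D.tt P s) :=
  (RSm.const 1).sub (RSm.sum _ fun a _ => D.rsm_ρL P a)

/-- the index set of the partition of unity on the infinite cyclic cover -/
abbrev Ix (G : GoodCover X A) (s : Finset (Fin G.n × ℤ)) : Type := Option (Fin G.n) ⊕ s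

/-- the open sets of the partition of unity on the infinite cyclic cover -/
def UE (s : Finset (Fin G.n × ℤ)) : Ix G s → Set (Cov h)
  | Sum.inl none => {z | D.ht s < |Cov.f z|}
  | Sum.inl (some i) => D.Uout s i
  | Sum.inr a => D.U a.1.1 a.1.2

/-- the functions of the partition of unity on the infinite cyclic cover -/
def φE (s : Finset (Fin G.n × ℤ)) : Ix G s → Cov h → ℝ
  | Sum.inl none => fun z => Real.sin (Real.pi / 2 * D.tt P s z)
  | Sum.inl (some i) => fun z => Real.cos (Real.pi / 2 * D.tt P s z) * D.φout P s i z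
  | Sum.inr a => P.φL D.sheets a.1

theorem sum_φE_sq (s : Finset (Fin G.n × ℤ)) (z : Cov h) : ∑ α, D.φE P s α z ^ 2 = 1 := by
  rw [Fintype.sum_sum_type, Fintype.sum_option]
  simp only [φE, mul_pow]
  rw [← Finset.mul_sum, D.sum_φout_sq]
  have h1 : ∑ a : s, P.φL D.sheets a.1 z ^ 2 = ∑ a ∈ s, P.φL D.sheets a z ^ 2 :=
    Finset.sum_coe_sort s (fun a => P.φL D.sheets a z ^ 2)
  rw [h1]
  have h2 := Real.sin_sq_add_cos_sq (Real.pi / 2 * D.tt P s z)
  by_cases hz : ∃ a ∈ s, z ∈ D.S a.1 a.2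
  · obtain ⟨a, ha, hz⟩ := hz
    have h3 := D.abs_f_le ha hz
    rw [D.tt_eq_zero P (by linarith)]
    simp
  · have h3 : ∑ a ∈ s, P.φL D.sheets a z ^ 2 = 0 := by
      refine Finset.sum_eq_zero fun a ha => ?_
      have h4 : P.φL D.sheets a z = 0 := D.sheets.lift_of_notMem _ fun hmem => hz ⟨a, ha, hmem⟩
      rw [h4]
      exact zero_pow two_ne_zero
    rw [h3]
    linarith

/-- **The partition of unity by squares on the infinite cyclic cover.** -/
def sqE (s : Finset (Fin G.n × ℤ)) : SqPart (Cov h) (Ix G s) where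
  U := D.UE s
  isOpen α := by
    rcases α with (_ | i) | a
    · exact isOpen_lt continuous_const (continuous_abs.comp Cov.continuous_f)
    · exact D.isOpen_Uout s i
    · exact D.sheets.isOpen_U Cov.continuous_p _ _
  φ := D.φE P s
  smooth α := by
    have hpi : RSm (fun z : Cov h => Real.pi / 2 * D.tt P s z) :=
      (RSm.const _).mul (D.rsm_tt P s)
    rcases α with (_ | i) | a
    · exact (hpi.comp Real.contDiff_sin).reg
    · exact ((hpi.comp Real.contDiff_cos).mul (D.rsm_φout P s i)).reg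
    · exact (D.rsm_φL P a.1).reg
  supp α := by
    rcases α with (_ | i) | a
    · have h1 : tsupport (fun z => Real.sin (Real.pi / 2 * D.tt P s z)) ⊆
          {z : Cov h | D.ht s + 1 ≤ |Cov.f z|} := by
        refine closure_minimal ?_
          (isClosed_le continuous_const (continuous_abs.comp Cov.continuous_f))
        intro z hz
        rw [mem_support] at hz
        by_contra hcon
        rw [mem_ofPred_eq, not_le] at hcon
        apply hz
        rw [D.tt_eq_zero P hcon, mul_zero, Real.sin_zero]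
      refine h1.trans fun z hz => ?_
      have h2 : D.ht s + 1 ≤ |Cov.f z| := hz
      change D.ht s < |Cov.f z|
      linarith
    · exact (tsupport_mul_subset_right).trans (D.tsupport_φout P s i)
    · exact P.tsupport_φL D.sheets Cov.continuous_p a.1
  sum := D.sum_φE_sq P s

end parts

end CycCover

end Vale.Agent.P267.H431
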