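import Vale.Agent.P267.H431.LB2
import Vale.Agent.P267.H283.BlockC

/-!
# P267, package LIFT-LB (helper431), part 3: the line bundle of a finitely supported cocycle on the
infinite cyclic cover
-/

set_option linter.unusedSectionVars false

open Set Filter Topology Metric Function
open scoped Manifold ContDiff

noncomputable section

namespace Vale.Agent.P267.H431

open Vale.Agent.P267.H368 Vale.Agent.P267.H158 Vale.Agent.P267.H82 Vale.Agent.P267.H995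
  Vale.Agent.P267.FL Vale.Agent.P267.H533 Vale.Agent.P267.BlockC

section two

variable {M : Type*} [TopologicalSpace M] [ChartedSpace C2 M]

/-- the two-form with given values on the pairs of functionals `∂_i`, `∂̄_i` -/
def two (Φ : M → ((C2 →L[ℝ] ℂ) →ₗ[ℂ] ℂ) → ((C2 →L[ℝ] ℂ) →ₗ[ℂ] ℂ) → ℂ) : TwoF M :=
  ⟨fun x => Φ x (tz 0) (tz 1), fun x => Matrix.of fun k l => Φ x (tz k) (tb l),
    fun x => Φ x (tb 0) (tb 1)⟩

theorem curv_eq_two {ι : Type} [Fintype ι] [DecidableEq ι] (L : LB M ι) :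
    L.curv = two (fun x => curP L.P x) := by
  unfold LB.curv two curP DM
  refine TwoF.ext ?_ ?_ ?_
  · funext x
    simp only [LB.F20, del0_eq]
  · funext x
    simp only [LB.F11, del0_eq, dbar0_eq]
  · funext x
    simp only [LB.F02, dbar0_eq]

/-- value of `ψ_a dψ_b ∧ dψ_c` on a pair of functionals -/
def w3 {κ : Type*} (ψ : κ → M → ℂ) (a b c : κ) (x : M) (T T' : (C2 →L[ℝ] ℂ) →ₗ[ℂ] ℂ) : ℂ :=
  ψ a x * (DT T x (ψ b) * DT T' x (ψ c) - DT T' x (ψ b) * DT T x (ψ c))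

/-- the squares of the functions of a partition of unity by squares -/
def sψ {ι : Type} [Fintype ι] (S : SqPart M ι) (a : ι) (x : M) : ℂ :=
  (S.φ a x : ℂ) * (S.φ a x : ℂ)

theorem toPart_ψ {ι : Type} [Fintype ι] [DecidableEq ι] (S : SqPart M ι) : S.toPart.ψ = sψ S :=
  funext fun a => funext fun x => S.ψ_eq a x

theorem curP_lb {ι : Type} [Fintype ι] [DecidableEq ι] (S : SqPart M ι) (z : ι → ι → ι → ℤ)
    (hz : IsCoc S.U z) (x : M) (T T' : (C2 →L[ℝ] ℂ) →ₗ[ℂ] ℂ) :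
    curP (S.lb z hz).P x T T' =
      -(2 * Real.pi * Complex.I) * ∑ a, ∑ b, ∑ c, (z a b c : ℂ) * w3 (sψ S) a b c x T T' := by
  obtain ⟨c, hc⟩ := S.toPart.exists_mem x
  have h1 : curP (S.lb z hz).P x T T' = _ := SqPart.curP_P hz (c := c) hc T T'
  have h2 := Part.Wp_eq' (S := S.toPart) (SqPart.isCoc_cast hz) (a := c) hc T T'
  have h3 : ∑ a, ∑ b, ∑ c, (z a b c : ℂ) * w3 (sψ S) a b c x T T' =
      S.toPart.Wp (fun a b c => (z a b c : ℂ)) x T T' := by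
    rw [← toPart_ψ]
    unfold Part.Wp Part.wd w3
    refine Finset.sum_congr rfl fun a _ => Finset.sum_congr rfl fun b _ =>
      Finset.sum_congr rfl fun c _ => ?_
    ring
  rw [h3, h1, h2]
  ring

end two

variable {F : Type*} [NormedAddCommGroup F] [InnerProductSpace ℝ F] {X : Type}
  [TopologicalSpace X] [ChartedSpace C2 X] {A : C2 ≃L[ℝ] F}

namespace CycCover

variable {G : GoodCover X A} {h : C(X, UnitAddCircle)} (D : CycCover G h)
  [IsManifold 𝓘(ℂ, C2) ω X]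

/-- extension by zero of a cochain -/
def extC {R : Type*} [Zero R] {s : Finset (Fin G.n × ℤ)}
    (e : Fin G.n × ℤ → Fin G.n × ℤ → Fin G.n × ℤ → R) : Ix G s → Ix G s → Ix G s → R
  | Sum.inr a, Sum.inr b, Sum.inr c => e a.1 b.1 c.1
  | Sum.inl _, _, _ => 0
  | Sum.inr _, Sum.inl _, _ => 0
  | Sum.inr _, Sum.inr _, Sum.inl _ => 0

theorem exists_mem_U (z : Cov h) : ∃ a : Fin G.n × ℤ, z ∈ D.U a.1 a.2 := by
  obtain ⟨i, hi⟩ := G.exists_mem_U (Cov.p z)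
  obtain ⟨k, hk⟩ := D.sheets.exists_mem_S (D.U_sub_W i hi)
  exact ⟨(i, k), hk, hi⟩

/-- an index of the good cover which represents an element of `Ix G s` at a point -/
theorem exists_rep {s : Finset (Fin G.n × ℤ)} {α : Ix G s} {z : Cov h} (hz : z ∈ D.UE s α) :
    ∃ a : Fin G.n × ℤ, z ∈ D.U a.1 a.2 ∧
      ((∃ h : a ∈ s, α = Sum.inr ⟨a, h⟩) ∨ (a ∉ s ∧ ∃ β, α = Sum.inl β)) := by
  rcases α with (_ | i) | a
  · obtain ⟨a, ha⟩ := D.exists_mem_U z
    refine ⟨a, ha, Or.inr ⟨fun hs => ?_, none, rfl⟩⟩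
    have h1 := D.abs_f_le hs ha.1
    have h2 : D.ht s < |Cov.f z| := hz
    linarith
  · obtain ⟨k, hk, hzk⟩ := D.mem_Uout.1 hz
    exact ⟨(i, k), hzk, Or.inr ⟨hk, some i, rfl⟩⟩
  · exact ⟨a.1, hz, Or.inl ⟨a.2, rfl⟩⟩

theorem extC_eq {R : Type*} [Zero R] {s : Finset (Fin G.n × ℤ)}
    {e : Fin G.n × ℤ → Fin G.n × ℤ → Fin G.n × ℤ → R}
    (hs : ∀ a b c, e a b c ≠ 0 → a ∈ s ∧ b ∈ s ∧ c ∈ s) {α β γ : Ix G s} {a b c : Fin G.n × ℤ}
    (ha : (∃ h : a ∈ s, α = Sum.inr ⟨a, h⟩) ∨ (a ∉ s ∧ ∃ β, α = Sum.inl β))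
    (hb : (∃ h : b ∈ s, β = Sum.inr ⟨b, h⟩) ∨ (b ∉ s ∧ ∃ β', β = Sum.inl β'))
    (hc : (∃ h : c ∈ s, γ = Sum.inr ⟨c, h⟩) ∨ (c ∉ s ∧ ∃ β, γ = Sum.inl β)) :
    extC e α β γ = e a b c := by
  have h0 : (a ∉ s ∨ b ∉ s ∨ c ∉ s) → e a b c = 0 := by
    intro hor
    by_contra hne
    obtain ⟨h1, h2, h3⟩ := hs a b c hne
    tauto
  rcases ha with ⟨ha, rfl⟩ | ⟨ha, α', rfl⟩
  · rcases hb with ⟨hb, rfl⟩ | ⟨hb, β', rfl⟩
    · rcases hc with ⟨hc, rfl⟩ | ⟨hc, γ', rfl⟩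
      · rfl
      · rw [h0 (by tauto)]
        rfl
    · rw [h0 (by tauto)]
      rfl
  · rw [h0 (by tauto)]
    rfl

theorem extC_coc {R : Type*} [AddCommGroup R] {s : Finset (Fin G.n × ℤ)}
    {e : Fin G.n × ℤ → Fin G.n × ℤ → Fin G.n × ℤ → R}
    (hs : ∀ a b c, e a b c ≠ 0 → a ∈ s ∧ b ∈ s ∧ c ∈ s)
    (he : ∀ a b c d, D.tet4 a b c d → e b c d - e a c d + e a b d - e a b c = 0) :
    IsCoc (D.UE s) (extC e : Ix G s → Ix G s → Ix G s → R) := by
  intro α β γ δ z h1 h2 h3 h4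
  obtain ⟨a, ha, ha'⟩ := D.exists_rep h1
  obtain ⟨b, hb, hb'⟩ := D.exists_rep h2
  obtain ⟨c, hc, hc'⟩ := D.exists_rep h3
  obtain ⟨d, hd, hd'⟩ := D.exists_rep h4
  rw [extC_eq hs hb' hc' hd', extC_eq hs ha' hc' hd', extC_eq hs ha' hb' hd',
    extC_eq hs ha' hb' hc']
  exact he a b c d ⟨z, ⟨⟨ha, hb⟩, hc⟩, hd⟩

section lb

variable (P : PartUnity G)

/-- **the line bundle of a finitely supported integral cocycle on the infinite cyclic cover** -/
def lbE (s : Finset (Fin G.n × ℤ)) (e : Fin G.n × ℤ → Fin G.n × ℤ → Fin G.n × ℤ → ℤ)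
    (hs : ∀ a b c, e a b c ≠ 0 → a ∈ s ∧ b ∈ s ∧ c ∈ s)
    (he : ∀ a b c d, D.tet4 a b c d → e b c d - e a c d + e a b d - e a b c = 0) :
    ALB (Cov h) where
  ι := Ix G s
  L := (D.sqE P s).lb (extC e) (D.extC_coc hs he)

variable {s : Finset (Fin G.n × ℤ)} {e : Fin G.n × ℤ → Fin G.n × ℤ → Fin G.n × ℤ → ℤ}
  (hs : ∀ a b c, e a b c ≠ 0 → a ∈ s ∧ b ∈ s ∧ c ∈ s)
  (he : ∀ a b c d, D.tet4 a b c d → e b c d - e a c d + e a b d - e a b c = 0)

/-- it is trivial at both ends -/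
theorem endTriv_lbE : EndTriv h (D.lbE P s e hs he) (Sum.inl none : Ix G s) (D.rr s) := by
  intro x hx
  have ht := D.tt_eq_one P hx
  have h1 : D.φE P s (Sum.inl none) x = 1 := by
    simp only [φE]
    rw [ht, mul_one, Real.sin_pi_div_two]
  have h2 : ∀ i, D.φE P s (Sum.inl (some i)) x = 0 := by
    intro i
    simp only [φE]
    rw [ht, mul_one, Real.cos_pi_div_two, zero_mul]
  have h3 : ∀ a, D.φE P s (Sum.inr a) x = 0 := by
    intro a
    simp only [φE]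
    refine D.sheets.lift_of_notMem _ fun hmem => ?_
    have h4 := D.abs_f_le a.2 hmem
    have h5 := D.ht_le_rr s
    linarith
  have h4 : ∀ α : Ix G s, α ≠ Sum.inl none → D.φE P s α x = 0 := by
    rintro ((_ | i) | a) hα
    · exact absurd rfl hα
    · exact h2 i
    · exact h3 a
  have h5 : (D.sqE P s).g (extC e : Ix G s → Ix G s → Ix G s → ℤ) (Sum.inl none)
      (Sum.inl none) x = 1 := by
    have h6 : (D.sqE P s).h (extC e : Ix G s → Ix G s → Ix G s → ℤ) (Sum.inl none)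
        (Sum.inl none) x = 0 := by
      unfold SqPart.h
      refine Finset.sum_eq_zero fun c _ => ?_
      have h7 : (extC e : Ix G s → Ix G s → Ix G s → ℤ) (Sum.inl none) (Sum.inl none) c = 0 := rfl
      rw [h7, Int.cast_zero, zero_mul]
    unfold SqPart.g
    rw [h6, mul_zero, Complex.exp_zero]
  change (D.sqE P s).P (extC e) x = Matrix.single (Sum.inl none) (Sum.inl none) 1
  ext α β
  rw [SqPart.P_apply]
  change ((D.φE P s α x : ℝ) : ℂ) * _ * ((D.φE P s β x : ℝ) : ℂ) = _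
  by_cases hα : α = Sum.inl none
  · by_cases hβ : β = Sum.inl none
    · subst hα hβ
      rw [h1, h5, Matrix.single_apply_same]
      simp
    · rw [h4 β hβ, Matrix.single_apply_of_ne]
      · simp
      · rintro ⟨-, h⟩
        exact hβ h.symm
  · rw [h4 α hα, Matrix.single_apply_of_ne]
    · simp
    · rintro ⟨h, -⟩
      exact hα h.symm

/-- the periodic squares `ψ_a = φ_a ^ 2` -/
def ψL (P : PartUnity G) (a : Fin G.n × ℤ) (x : Cov h) : ℂ :=
  (P.φL D.sheets a x : ℂ) * (P.φL D.sheets a x : ℂ)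

/-- **the curvature of `lbE`** -/
theorem curP_lbE (x : Cov h) (T T' : (C2 →L[ℝ] ℂ) →ₗ[ℂ] ℂ) :
    curP (D.lbE P s e hs he).L.P x T T' =
      -(2 * Real.pi * Complex.I) * ∑ a ∈ s, ∑ b ∈ s, ∑ c ∈ s,
        (e a b c : ℂ) * w3 (D.ψL P) a b c x T T' := by
  have h1 := curP_lb (D.sqE P s) (extC e) (D.extC_coc hs he) x T T'
  refine h1.trans ?_
  congr 1
  rw [Fintype.sum_sum_type]
  have h2 : ∑ α : Option (Fin G.n), ∑ b, ∑ c, (((extC e : Ix G s → Ix G s → Ix G s → ℤ)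
      (Sum.inl α) b c : ℤ) : ℂ) * w3 (sψ (D.sqE P s)) (Sum.inl α) b c x T T' = 0 := by
    refine Finset.sum_eq_zero fun α _ => Finset.sum_eq_zero fun b _ =>
      Finset.sum_eq_zero fun c _ => ?_
    have h3 : (extC e : Ix G s → Ix G s → Ix G s → ℤ) (Sum.inl α) b c = 0 := rfl
    rw [h3, Int.cast_zero, zero_mul]
  rw [h2, zero_add, ← Finset.sum_coe_sort s]
  refine Finset.sum_congr rfl fun a _ => ?_
  rw [Fintype.sum_sum_type]
  have h4 : ∑ β : Option (Fin G.n), ∑ c, (((extC e : Ix G s → Ix G s → Ix G s → ℤ)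
      (Sum.inr a) (Sum.inl β) c : ℤ) : ℂ) *
        w3 (sψ (D.sqE P s)) (Sum.inr a) (Sum.inl β) c x T T' = 0 := by
    refine Finset.sum_eq_zero fun β _ => Finset.sum_eq_zero fun c _ => ?_
    have h3 : (extC e : Ix G s → Ix G s → Ix G s → ℤ) (Sum.inr a) (Sum.inl β) c = 0 := rfl
    rw [h3, Int.cast_zero, zero_mul]
  rw [h4, zero_add, ← Finset.sum_coe_sort s]
  refine Finset.sum_congr rfl fun b _ => ?_
  rw [Fintype.sum_sum_type]
  have h5 : ∑ γ : Option (Fin G.n), (((extC e : Ix G s → Ix G s → Ix G s → ℤ)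
      (Sum.inr a) (Sum.inr b) (Sum.inl γ) : ℤ) : ℂ) *
        w3 (sψ (D.sqE P s)) (Sum.inr a) (Sum.inr b) (Sum.inl γ) x T T' = 0 := by
    refine Finset.sum_eq_zero fun γ _ => ?_
    have h3 : (extC e : Ix G s → Ix G s → Ix G s → ℤ) (Sum.inr a) (Sum.inr b) (Sum.inl γ) = 0 :=
      rfl
    rw [h3, Int.cast_zero, zero_mul]
  rw [h5, zero_add, ← Finset.sum_coe_sort s]
  rfl

end lb

end CycCover

end Vale.Agent.P267.H431
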