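import Vale.Agent.P267.H431.LB3
import Vale.Agent.P267.H622.CovMaps

/-!
# P267, package LIFT-LB (helper431), part 4: the curvature on the finite cover is the periodisation
of the curvature on the infinite cover
-/

set_option linter.unusedSectionVars false

open Set Filter Topology Metric Function
open scoped Manifold ContDiff

noncomputable section

namespace Vale.Agent.P267.H431

open Vale.Agent.P267.H368 Vale.Agent.P267.H158 Vale.Agent.P267.H82 Vale.Agent.P267.H995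
  Vale.Agent.P267.FL Vale.Agent.P267.H533 Vale.Agent.P267.BlockC

theorem DT_chartMap {M N : Type*} [TopologicalSpace M] [ChartedSpace C2 M] [TopologicalSpace N]
    [ChartedSpace C2 N] {q : M → N} (hq : XT.ChartMap q) (T : (C2 →L[ℝ] ℂ) →ₗ[ℂ] ℂ) (x : M)
    (g : N → ℂ) : DT T x (fun y => g (q y)) = DT T (q x) g := by
  unfold DT
  have h1 := hq.symm_germ x
  rw [hq.apply_eq x]
  congr 1
  refine Filter.EventuallyEq.fderiv_eq ?_
  filter_upwards [h1] with z hz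
  rw [hz]

variable {F : Type*} [NormedAddCommGroup F] [InnerProductSpace ℝ F] {X : Type*}
  [TopologicalSpace X] [ChartedSpace C2 X] {A : C2 ≃L[ℝ] F} {G : GoodCover X A}

/-- the squares `ψ_i` on the base -/
def ψX (P : PartUnity G) (i : Fin G.n) (x : X) : ℂ := (P.φ i x : ℂ) * (P.φ i x : ℂ)

section sheets

variable {Y : Type*} [TopologicalSpace Y] [ChartedSpace C2 Y] {p : Y → X} {K : Type*}
  (T : Sheets p G K) (P : PartUnity G)

/-- the squares of the lifted functions -/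
def ψS (a : Fin G.n × K) (y : Y) : ℂ := (P.φL T a y : ℂ) * (P.φL T a y : ℂ)

theorem ψS_of_notMem (hp : Continuous p) {a : Fin G.n × K} {y : Y} (hy : y ∉ T.U a.1 a.2) :
    ψS T P a =ᶠ[𝓝 y] fun _ => 0 := by
  have h1 : y ∉ tsupport (P.φL T a) := fun h => hy (P.tsupport_φL T hp a h)
  filter_upwards [notMem_tsupport_iff_eventuallyEq.1 h1] with z hz
  simp [ψS, hz]

theorem ψS_of_mem {a : Fin G.n × K} {y : Y} (hy : y ∈ T.U a.1 a.2) :
    ψS T P a =ᶠ[𝓝 y] fun z => ψX P a.1 (p z) := by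
  filter_upwards [(T.isOpen_S a.1 a.2).mem_nhds hy.1] with z hz
  unfold ψS ψX PartUnity.φL
  rw [T.lift_of_mem _ hz]

theorem DT_ψS_of_notMem (hp : Continuous p) {a : Fin G.n × K} {y : Y} (hy : y ∉ T.U a.1 a.2)
    (R : (C2 →L[ℝ] ℂ) →ₗ[ℂ] ℂ) : DT R y (ψS T P a) = 0 := by
  rw [DT_congr R (ψS_of_notMem T P hp hy), DT_const]

theorem DT_ψS_of_mem (hp : XT.ChartMap p) {a : Fin G.n × K} {y : Y} (hy : y ∈ T.U a.1 a.2)
    (R : (C2 →L[ℝ] ℂ) →ₗ[ℂ] ℂ) : DT R y (ψS T P a) = DT R (p y) (ψX P a.1) := by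
  rw [DT_congr R (ψS_of_mem T P hy), DT_chartMap hp]

theorem w3_of_mem (hp : XT.ChartMap p) {a b c : Fin G.n × K} {y : Y} (ha : y ∈ T.U a.1 a.2)
    (hb : y ∈ T.U b.1 b.2) (hc : y ∈ T.U c.1 c.2) (R R' : (C2 →L[ℝ] ℂ) →ₗ[ℂ] ℂ) :
    w3 (ψS T P) a b c y R R' = w3 (ψX P) a.1 b.1 c.1 (p y) R R' := by
  unfold w3
  rw [DT_ψS_of_mem T P hp hb, DT_ψS_of_mem T P hp hc, DT_ψS_of_mem T P hp hb,
    DT_ψS_of_mem T P hp hc, (ψS_of_mem T P ha).eq_of_nhds]

theorem w3_of_notMem (hp : Continuous p) {a b c : Fin G.n × K} {y : Y}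
    (h : ¬ (y ∈ T.U a.1 a.2 ∧ y ∈ T.U b.1 b.2 ∧ y ∈ T.U c.1 c.2))
    (R R' : (C2 →L[ℝ] ℂ) →ₗ[ℂ] ℂ) : w3 (ψS T P) a b c y R R' = 0 := by
  unfold w3
  by_cases ha : y ∈ T.U a.1 a.2
  · by_cases hb : y ∈ T.U b.1 b.2
    · have hc : y ∉ T.U c.1 c.2 := fun hc => h ⟨ha, hb, hc⟩
      rw [DT_ψS_of_notMem T P hp hc, DT_ψS_of_notMem T P hp hc]
      ring
    · rw [DT_ψS_of_notMem T P hp hb, DT_ψS_of_notMem T P hp hb]
      ring
  · rw [(ψS_of_notMem T P hp ha).eq_of_nhds]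
    ring

end sheets

namespace CycCover

variable {X : Type} [TopologicalSpace X] [ChartedSpace C2 X] {A : C2 ≃L[ℝ] F}
  {G : GoodCover X A} {h : C(X, UnitAddCircle)} (D : CycCover G h)
  {m : ℕ} [NeZero m]

/-- a point of a simplex of the nerve of the `m`-fold cover: the translate which is in the given
lift of the simplex is unique -/
theorem shift_mem_unique {a : Fin G.n × ℤ} {x : Cov h} {k k' : ℤ}
    (h1 : Cov.shift (k * m) x ∈ D.U a.1 a.2) (h2 : Cov.shift (k' * m) x ∈ D.U a.1 a.2) :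
    k = k' := by
  have e1 := (D.mem_U.1 h1).2
  have e2 := (D.mem_U.1 h2).2
  rw [Cov.f_shift, Cov.p_shift] at e1 e2
  have hm : (m : ℝ) ≠ 0 := by exact_mod_cast NeZero.ne m
  have h3 : ((k * m : ℤ) : ℝ) = ((k' * m : ℤ) : ℝ) := by linarith
  have h4 : k * (m : ℤ) = k' * m := by exact_mod_cast h3
  have hm' : (m : ℤ) ≠ 0 := by exact_mod_cast NeZero.ne m
  exact mul_right_cancel₀ hm' h4

/-- if `toM x` is in the image of a triangle, some translate of `x` is in the triangle -/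
theorem exists_shift_mem {a b c : Fin G.n × ℤ} (habc : D.tri3 a b c) {x : Cov h}
    (ha : Cov.toM m x ∈ D.UM m (pr m a).1 (pr m a).2)
    (hb : Cov.toM m x ∈ D.UM m (pr m b).1 (pr m b).2)
    (hc : Cov.toM m x ∈ D.UM m (pr m c).1 (pr m c).2) :
    ∃ k : ℤ, Cov.shift (k * m) x ∈ D.U a.1 a.2 ∧ Cov.shift (k * m) x ∈ D.U b.1 b.2 ∧
      Cov.shift (k * m) x ∈ D.U c.1 c.2 := by
  obtain ⟨a', ha1, ha2⟩ := D.exists_idx ha
  obtain ⟨k, hk⟩ := pr_eq_iff.1 ha1.symm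
  have h1 : Cov.shift (k * m) x ∈ D.U a.1 a.2 := by
    rw [hk]
    exact D.shift_mem_U.2 ha2
  obtain ⟨z, ⟨hza, hzb⟩, hzc⟩ := habc
  have hpb : Cov.p (Cov.shift (k * m) x) ∈ G.U b.1 := by
    rw [Cov.p_shift]
    have := hb.2
    rwa [mem_preimage, Cov.p_toM] at this
  have hpc : Cov.p (Cov.shift (k * m) x) ∈ G.U c.1 := by
    rw [Cov.p_shift]
    have := hc.2
    rwa [mem_preimage, Cov.p_toM] at this
  exact ⟨k, h1, D.mem_U_of_mem h1 hpb (D.sub_eq_c hza hzb),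
    D.mem_U_of_mem h1 hpc (D.sub_eq_c hza hzc)⟩

theorem toM_shift_mul (k : ℤ) (x : Cov h) : Cov.toM m (Cov.shift (k * m) x) = Cov.toM m x :=
  (Cov.toM_eq_iff.2 ⟨k, by rw [mul_comm]⟩).symm

variable (P : PartUnity G)

/-- **periodisation of `ψ_a dψ_b ∧ dψ_c`** -/
theorem w3_toM {a b c : Fin G.n × ℤ} (habc : D.tri3 a b c) (x : Cov h)
    (R R' : (C2 →L[ℝ] ℂ) →ₗ[ℂ] ℂ) :
    ∃ k : ℤ, w3 (ψS (D.sheetsM m) P) (pr m a) (pr m b) (pr m c) (Cov.toM m x) R R' =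
      w3 (ψS D.sheets P) a b c (Cov.shift (k * m) x) R R' ∧
      ∀ k' : ℤ, k' ≠ k → w3 (ψS D.sheets P) a b c (Cov.shift (k' * m) x) R R' = 0 := by
  by_cases hx : Cov.toM m x ∈ D.UM m (pr m a).1 (pr m a).2 ∧
      Cov.toM m x ∈ D.UM m (pr m b).1 (pr m b).2 ∧ Cov.toM m x ∈ D.UM m (pr m c).1 (pr m c).2
  · obtain ⟨k, h1, h2, h3⟩ := D.exists_shift_mem habc hx.1 hx.2.1 hx.2.2
    refine ⟨k, ?_, fun k' hk' => ?_⟩
    · rw [w3_of_mem (D.sheetsM m) P XT.chartMap_pM hx.1 hx.2.1 hx.2.2,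
        w3_of_mem D.sheets P XT.chartMap_p h1 h2 h3, Cov.p_shift, Cov.p_toM]
      rfl
    · refine w3_of_notMem D.sheets P Cov.continuous_p ?_ R R'
      rintro ⟨h1', -, -⟩
      exact hk' (D.shift_mem_unique h1' h1)
  · have h0 : ∀ k' : ℤ, w3 (ψS D.sheets P) a b c (Cov.shift (k' * m) x) R R' = 0 := by
      intro k'
      refine w3_of_notMem D.sheets P Cov.continuous_p ?_ R R'
      rintro ⟨h1', h2', h3'⟩
      apply hx
      rw [← toM_shift_mul k' x]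
      exact ⟨D.toM_mem_UM_of_mem h1', D.toM_mem_UM_of_mem h2', D.toM_mem_UM_of_mem h3'⟩
    refine ⟨0, ?_, fun k' _ => h0 k'⟩
    rw [h0, w3_of_notMem (D.sheetsM m) P CovM.continuous_p hx]

theorem w3_toM_finsum {a b c : Fin G.n × ℤ} (habc : D.tri3 a b c) (x : Cov h)
    (R R' : (C2 →L[ℝ] ℂ) →ₗ[ℂ] ℂ) :
    w3 (ψS (D.sheetsM m) P) (pr m a) (pr m b) (pr m c) (Cov.toM m x) R R' =
      ∑ᶠ k : ℤ, w3 (ψS D.sheets P) a b c (Cov.shift (k * m) x) R R' := by
  obtain ⟨k, h1, h2⟩ := D.w3_toM (m := m) P habc x R R'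
  rw [h1, finsum_eq_single _ k h2]

theorem w3_finite {a b c : Fin G.n × ℤ} (habc : D.tri3 a b c) (x : Cov h)
    (R R' : (C2 →L[ℝ] ℂ) →ₗ[ℂ] ℂ) :
    (support fun k : ℤ => w3 (ψS D.sheets P) a b c (Cov.shift (k * m) x) R R').Finite := by
  obtain ⟨k, -, h2⟩ := D.w3_toM (m := m) P habc x R R'
  refine (finite_singleton k).subset fun k' hk' => ?_
  by_contra hne
  exact hk' (h2 k' hne)

/-- the sum over the indices of the finite cover -/
theorem sum_wrap {s : Finset (Fin G.n × ℤ)} {e : Fin G.n × ℤ → Fin G.n × ℤ → Fin G.n × ℤ → ℤ}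
    (f : Fin G.n × ZMod m → Fin G.n × ZMod m → Fin G.n × ZMod m → ℂ) :
    ∑ α, ∑ β, ∑ γ, ((wrap m s e α β γ : ℤ) : ℂ) * f α β γ =
      ∑ a ∈ s, ∑ b ∈ s, ∑ c ∈ s, (e a b c : ℂ) * f (pr m a) (pr m b) (pr m c) := by
  have h1 : ∀ α β γ : Fin G.n × ZMod m, ((wrap m s e α β γ : ℤ) : ℂ) * f α β γ =
      ∑ a ∈ s, ∑ b ∈ s, ∑ c ∈ s, if pr m a = α ∧ pr m b = β ∧ pr m c = γ then
        (e a b c : ℂ) * f α β γ else 0 := by
    intro α β γ
    unfold wrap
    push_cast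
    simp only [Finset.sum_mul]
    refine Finset.sum_congr rfl fun a _ => Finset.sum_congr rfl fun b _ =>
      Finset.sum_congr rfl fun c _ => ?_
    split_ifs <;> simp
  simp only [h1]
  have h2 : ∀ (a b c : Fin G.n × ℤ), ∑ α : Fin G.n × ZMod m, ∑ β : Fin G.n × ZMod m,
      ∑ γ : Fin G.n × ZMod m, (if pr m a = α ∧ pr m b = β ∧ pr m c = γ then
        (e a b c : ℂ) * f α β γ else 0) = (e a b c : ℂ) * f (pr m a) (pr m b) (pr m c) := by
    intro a b c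
    rw [Finset.sum_eq_single (pr m a), Finset.sum_eq_single (pr m b),
      Finset.sum_eq_single (pr m c)]
    · simp
    · intro γ _ hγ
      rw [if_neg]
      rintro ⟨-, -, h3⟩
      exact hγ h3.symm
    · intro h3
      exact absurd (Finset.mem_univ _) h3
    · intro β _ hβ
      refine Finset.sum_eq_zero fun γ _ => ?_
      rw [if_neg]
      rintro ⟨-, h3, -⟩
      exact hβ h3.symm
    · intro h3
      exact absurd (Finset.mem_univ _) h3
    · intro α _ hα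
      refine Finset.sum_eq_zero fun β _ => Finset.sum_eq_zero fun γ _ => ?_
      rw [if_neg]
      rintro ⟨h3, -, -⟩
      exact hα h3.symm
    · intro h3
      exact absurd (Finset.mem_univ _) h3
  simp only [← h2]
  -- exchange the sums
  simp only [Finset.sum_comm (s := Finset.univ) (t := s)]

end CycCover

end Vale.Agent.P267.H431
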