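import Vale.Agent.P267.H431.LB4
import Vale.Agent.P267.H622.CovInt
import Vale.Agent.P267.H283.Facts
import Vale.Agent.P267.H399.LBCurv

/-!
# P267, package LIFT-LB (helper431), part 5: unfolding of the integrals
-/

set_option linter.unusedSectionVars false

open Set Filter Topology Metric Function
open scoped Manifold ContDiff

noncomputable section

namespace Vale.Agent.P267.H431

open Vale.Agent.P267.H368 Vale.Agent.P267.H158 Vale.Agent.P267.H82 Vale.Agent.P267.H995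
  Vale.Agent.P267.FL Vale.Agent.P267.H533 Vale.Agent.P267.BlockC Vale.Agent.P267.RR

variable {F : Type*} [NormedAddCommGroup F] [InnerProductSpace ℝ F] {X : Type}
  [TopologicalSpace X] [ChartedSpace C2 X] {A : C2 ≃L[ℝ] F}

theorem sum_comm_four {κ κ' : Type*} (s : Finset κ) (t : Finset κ') (f : κ → κ → κ → κ' → ℂ) :
    ∑ a ∈ s, ∑ b ∈ s, ∑ c ∈ s, ∑ k ∈ t, f a b c k =
      ∑ k ∈ t, ∑ a ∈ s, ∑ b ∈ s, ∑ c ∈ s, f a b c k := by
  rw [Finset.sum_comm (s := t)]
  refine Finset.sum_congr rfl fun a _ => ?_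
  rw [Finset.sum_comm (s := t)]
  refine Finset.sum_congr rfl fun b _ => ?_
  rw [Finset.sum_comm (s := t)]

namespace CycCover

variable {G : GoodCover X A} {h : C(X, UnitAddCircle)} (D : CycCover G h)
  [IsManifold 𝓘(ℂ, C2) ω X] (P : PartUnity G) {m : ℕ} [NeZero m]

/-- the point is in the union of the members of the cover with index in `s` -/
def act (s : Finset (Fin G.n × ℤ)) (x : Cov h) : Prop := ∃ a ∈ s, x ∈ D.U a.1 a.2

variable (m) in
theorem finite_act (s : Finset (Fin G.n × ℤ)) (x : Cov h) :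
    {k : ℤ | D.act s (Cov.shift (k * m) x)}.Finite := by
  have h1 : {k : ℤ | D.act s (Cov.shift (k * m) x)} ⊆
      ⋃ a ∈ s, {k : ℤ | Cov.shift (k * m) x ∈ D.U a.1 a.2} := by
    rintro k ⟨a, ha, hk⟩
    exact mem_iUnion₂.2 ⟨a, ha, hk⟩
  refine Set.Finite.subset (s.finite_toSet.biUnion fun a _ => ?_) h1
  exact Set.Subsingleton.finite fun k hk k' hk' => D.shift_mem_unique hk hk'

theorem f_le_of_act {s : Finset (Fin G.n × ℤ)} {x : Cov h} (hx : D.act s x) :
    |Cov.f x| ≤ D.ht s := by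
  obtain ⟨a, ha, hx⟩ := hx
  exact D.abs_f_le ha hx.1

theorem act_unique {s : Finset (Fin G.n × ℤ)}
    (hlev : ∀ a ∈ s, ∀ b ∈ s, |b.2 - a.2| + D.wd < m) {x : Cov h} (hx : D.act s x) {k : ℤ}
    (hk : D.act s (Cov.shift (k * m) x)) : k = 0 := by
  obtain ⟨a, ha, hxa⟩ := hx
  obtain ⟨b, hb, hxb⟩ := hk
  have h1 : Cov.shift (k * m) x ∈ D.U a.1 (a.2 + k * m) := D.shift_mem_U.2 hxa
  have h2 := D.abs_sub_le_wd hxb h1
  have h3 := hlev b hb a ha
  by_contra hne
  have hm : (0 : ℤ) < m := by exact_mod_cast NeZero.pos m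
  have h4 : (m : ℤ) ≤ |k * m| := by
    rw [abs_mul, abs_of_pos hm]
    have : 1 ≤ |k| := Int.one_le_abs hne
    nlinarith
  have h5 : |k * (m : ℤ)| ≤ |a.2 + k * m - b.2| + |a.2 - b.2| := by
    have h6 : k * (m : ℤ) = (a.2 + k * m - b.2) - (a.2 - b.2) := by ring
    calc |k * (m : ℤ)| = |(a.2 + k * m - b.2) - (a.2 - b.2)| := by rw [← h6]
      _ ≤ _ := abs_sub _ _
  linarith

variable {s : Finset (Fin G.n × ℤ)} {e : Fin G.n × ℤ → Fin G.n × ℤ → Fin G.n × ℤ → ℤ}
  (hs : ∀ a b c, e a b c ≠ 0 → a ∈ s ∧ b ∈ s ∧ c ∈ s)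
  (he : ∀ a b c d, D.tet4 a b c d → e b c d - e a c d + e a b d - e a b c = 0)

theorem curP_lbE_zero {x : Cov h} (hx : ¬ D.act s x) (R R' : (C2 →L[ℝ] ℂ) →ₗ[ℂ] ℂ) :
    curP (D.lbE P s e hs he).L.P x R R' = 0 := by
  rw [D.curP_lbE P hs he x R R']
  have h1 : ∀ a ∈ s, ∀ b c, w3 (D.ψL P) a b c x R R' = 0 := by
    intro a ha b c
    refine w3_of_notMem D.sheets P Cov.continuous_p ?_ R R'
    rintro ⟨h2, -, -⟩
    exact hx ⟨a, ha, h2⟩
  rw [Finset.sum_eq_zero, mul_zero]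
  intro a ha
  refine Finset.sum_eq_zero fun b _ => Finset.sum_eq_zero fun c _ => ?_
  rw [h1 a ha, mul_zero]

/-- **the curvature on the `m`-fold cover is the periodisation of the curvature on the infinite
cover** -/
theorem curP_toM (h3 : ∀ a b c, e a b c ≠ 0 → D.tri3 a b c)
    (hw : IsCoc (D.sqM P m).U (wrap m s e)) (x : Cov h) (R R' : (C2 →L[ℝ] ℂ) →ₗ[ℂ] ℂ) :
    curP ((D.sqM P m).lb (wrap m s e) hw).P (Cov.toM m x) R R' =
      ∑ k ∈ (D.finite_act m s x).toFinset,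
        curP (D.lbE P s e hs he).L.P (Cov.shift (k * m) x) R R' := by
  rw [curP_lb]
  simp only [D.curP_lbE P hs he]
  rw [← Finset.mul_sum]
  congr 1
  have e1 : ∑ α, ∑ β, ∑ γ, ((wrap m s e α β γ : ℤ) : ℂ) *
        w3 (sψ (D.sqM P m)) α β γ (Cov.toM m x) R R' =
      ∑ a ∈ s, ∑ b ∈ s, ∑ c ∈ s, (e a b c : ℂ) *
        w3 (ψS (D.sheetsM m) P) (pr m a) (pr m b) (pr m c) (Cov.toM m x) R R' :=
    sum_wrap fun α β γ => w3 (ψS (D.sheetsM m) P) α β γ (Cov.toM m x) R R'
  rw [e1]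
  have e2 : ∀ a ∈ s, ∀ b ∈ s, ∀ c ∈ s, (e a b c : ℂ) *
        w3 (ψS (D.sheetsM m) P) (pr m a) (pr m b) (pr m c) (Cov.toM m x) R R' =
      ∑ k ∈ (D.finite_act m s x).toFinset, (e a b c : ℂ) *
        w3 (D.ψL P) a b c (Cov.shift (k * m) x) R R' := by
    intro a ha b hb c hc
    by_cases h0 : e a b c = 0
    · simp [h0]
    · rw [D.w3_toM_finsum P (h3 a b c h0), ← Finset.mul_sum]
      congr 1
      refine finsum_eq_sum_of_support_subset _ ?_
      intro k hk
      rw [Finite.coe_toFinset]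
      by_contra hno
      apply hk
      refine w3_of_notMem D.sheets P Cov.continuous_p ?_ R R'
      rintro ⟨h2, -, -⟩
      exact hno ⟨a, ha, h2⟩
  rw [Finset.sum_congr rfl fun a ha => Finset.sum_congr rfl fun b hb =>
    Finset.sum_congr rfl fun c hc => e2 a ha b hb c hc]
  exact sum_comm_four s (D.finite_act m s x).toFinset _

/-- the line bundle on the `m`-fold cover -/
def lbM (P : PartUnity G) (n : Fin G.n × ZMod m → Fin G.n × ZMod m → Fin G.n × ZMod m → ℤ)
    (hn : IsCoc (D.sqM P m).U n) : ALB (CovM h m) where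
  ι := Fin G.n × ZMod m
  L := (D.sqM P m).lb n hn

variable (h3 : ∀ a b c, e a b c ≠ 0 → D.tri3 a b c)
  (hw : IsCoc (D.sqM P m).U (wrap m s e))

theorem curv_f20_toM (h3 : ∀ a b c, e a b c ≠ 0 → D.tri3 a b c)
    (hw : IsCoc (D.sqM P m).U (wrap m s e)) (x : Cov h) :
    (D.lbM P _ hw).L.curv.f20 (Cov.toM m x) = ∑ k ∈ (D.finite_act m s x).toFinset,
      (D.lbE P s e hs he).L.curv.f20 (Cov.shift (k * m) x) := by
  simp only [curv_eq_two]
  exact D.curP_toM P hs he h3 hw x _ _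

theorem curv_f02_toM (h3 : ∀ a b c, e a b c ≠ 0 → D.tri3 a b c)
    (hw : IsCoc (D.sqM P m).U (wrap m s e)) (x : Cov h) :
    (D.lbM P _ hw).L.curv.f02 (Cov.toM m x) = ∑ k ∈ (D.finite_act m s x).toFinset,
      (D.lbE P s e hs he).L.curv.f02 (Cov.shift (k * m) x) := by
  simp only [curv_eq_two]
  exact D.curP_toM P hs he h3 hw x _ _

theorem curv_f11_toM (h3 : ∀ a b c, e a b c ≠ 0 → D.tri3 a b c)
    (hw : IsCoc (D.sqM P m).U (wrap m s e)) (x : Cov h) (i j : Fin 2) :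
    (D.lbM P _ hw).L.curv.f11 (Cov.toM m x) i j = ∑ k ∈ (D.finite_act m s x).toFinset,
      (D.lbE P s e hs he).L.curv.f11 (Cov.shift (k * m) x) i j := by
  simp only [curv_eq_two]
  exact D.curP_toM P hs he h3 hw x _ _

theorem curv_zero {x : Cov h} (hx : ¬ D.act s x) :
    (D.lbE P s e hs he).L.curv.f20 x = 0 ∧ (D.lbE P s e hs he).L.curv.f11 x = 0 ∧
      (D.lbE P s e hs he).L.curv.f02 x = 0 := by
  simp only [curv_eq_two]
  refine ⟨D.curP_lbE_zero P hs he hx _ _, ?_, D.curP_lbE_zero P hs he hx _ _⟩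
  ext i j
  exact D.curP_lbE_zero P hs he hx _ _

/-- a two-form on the finite cover, wedge the curvature, is the periodisation of its pull-back,
wedge the curvature upstairs -/
theorem wedge_toM (h3 : ∀ a b c, e a b c ≠ 0 → D.tri3 a b c)
    (hw : IsCoc (D.sqM P m).U (wrap m s e)) (B : TwoF (CovM h m)) (x : Cov h) :
    (B.wedge (D.lbM P _ hw).L.curv) (Cov.toM m x) =
      ∑ᶠ k : ℤ, ((pullM m B).wedge (D.lbE P s e hs he).L.curv) (Cov.shift (m * k) x) := by
  have h1 : (support fun k : ℤ => ((pullM m B).wedge (D.lbE P s e hs he).L.curv)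
      (Cov.shift (m * k) x)) ⊆ (D.finite_act m s x).toFinset := by
    intro k hk
    rw [Finite.coe_toFinset]
    by_contra hno
    apply hk
    have h2 : ¬ D.act s (Cov.shift (m * k) x) := by
      rw [mul_comm]
      exact hno
    obtain ⟨e1, e2, e3⟩ := D.curv_zero P hs he h2
    simp [TwoF.wedge, e1, e2, e3]
  rw [finsum_eq_sum_of_support_subset _ h1]
  have h4 : ∀ k : ℤ, ((pullM m B).wedge (D.lbE P s e hs he).L.curv) (Cov.shift (m * k) x) =
      B.f20 (Cov.toM m x) * (D.lbE P s e hs he).L.curv.f02 (Cov.shift (k * m) x) +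
      B.f02 (Cov.toM m x) * (D.lbE P s e hs he).L.curv.f20 (Cov.shift (k * m) x) -
      (B.f11 (Cov.toM m x) 0 0 * (D.lbE P s e hs he).L.curv.f11 (Cov.shift (k * m) x) 1 1 +
        B.f11 (Cov.toM m x) 1 1 * (D.lbE P s e hs he).L.curv.f11 (Cov.shift (k * m) x) 0 0 -
        B.f11 (Cov.toM m x) 0 1 * (D.lbE P s e hs he).L.curv.f11 (Cov.shift (k * m) x) 1 0 -
        B.f11 (Cov.toM m x) 1 0 * (D.lbE P s e hs he).L.curv.f11 (Cov.shift (k * m) x) 0 1) := by
    intro k
    rw [mul_comm (m : ℤ) k]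
    unfold TwoF.wedge pullM
    simp only [toM_shift_mul]
  simp only [h4]
  unfold TwoF.wedge
  rw [D.curv_f20_toM P hs he h3 hw, D.curv_f02_toM P hs he h3 hw]
  simp only [D.curv_f11_toM P hs he h3 hw, Finset.mul_sum]
  simp only [← Finset.sum_add_distrib, ← Finset.sum_sub_distrib]

theorem compact_curv [T2Space X] [CompactSpace X] (B : TwoF (Cov h)) :
    HasCompactSupport (B.wedge (D.lbE P s e hs he).L.curv) := by
  refine HasCompactSupport.intro (Cov.isCompact_slab (h := h) (-D.ht s) (D.ht s)) fun x hx => ?_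
  have h2 : ¬ D.act s x := fun hact => hx (abs_le.1 (D.f_le_of_act hact))
  obtain ⟨e1, e2, e3⟩ := D.curv_zero P hs he h2
  simp [TwoF.wedge, e1, e2, e3]

theorem reg_wedge {M : Type*} [TopologicalSpace M] [ChartedSpace C2 M] [IsManifold 𝓘(ℂ, C2) ω M]
    {B B' : TwoF M} (hB : B.Smooth) (hB' : B'.Smooth) : Reg2 0 1 (B.wedge B') := by
  have h1 : Reg2 ∞ 1 (B.wedge B') := H469.wedge_mem hB hB'
  exact fun e he => (h1 e he).of_le (by simp)

theorem smooth_pullM {B : TwoF (CovM h m)} (hB : B.Smooth) : (pullM m B).Smooth :=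
  XT.chartMap_toM.smooth_pull2 hB

/-- **unfolding** -/
theorem pair_toM [T2Space X] [CompactSpace X] (h3 : ∀ a b c, e a b c ≠ 0 → D.tri3 a b c)
    (hw : IsCoc (D.sqM P m).U (wrap m s e)) {B : TwoF (CovM h m)} (hB : B.Smooth) :
    pair B (D.lbM P _ hw).L.curv = pair (pullM m B) (D.lbE P s e hs he).L.curv :=
  XT.intX_toM (reg_wedge (smooth_pullM hB) (D.lbE P s e hs he).L.curv_smooth)
    (D.compact_curv P hs he _) (D.wedge_toM P hs he h3 hw B)

/-- the self-intersection upstairs and downstairs -/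
theorem pair_self [T2Space X] [CompactSpace X] (h3 : ∀ a b c, e a b c ≠ 0 → D.tri3 a b c)
    (hw : IsCoc (D.sqM P m).U (wrap m s e))
    (hlev : ∀ a ∈ s, ∀ b ∈ s, |b.2 - a.2| + D.wd < m) :
    pair (D.lbM P _ hw).L.curv (D.lbM P _ hw).L.curv =
      pair (D.lbE P s e hs he).L.curv (D.lbE P s e hs he).L.curv := by
  rw [D.pair_toM P hs he h3 hw (D.lbM P _ hw).L.curv_smooth]
  unfold BlockC.pair
  congr 1
  funext x
  by_cases hx : D.act s x
  · have hK : (D.finite_act m s x).toFinset = {0} := by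
      ext k
      rw [Finite.mem_toFinset, Finset.mem_singleton]
      constructor
      · intro hk
        exact D.act_unique hlev hx hk
      · rintro rfl
        simpa using hx
    have e1 := D.curv_f20_toM P hs he h3 hw x
    have e2 := D.curv_f02_toM P hs he h3 hw x
    have e3 := D.curv_f11_toM P hs he h3 hw x
    rw [hK, Finset.sum_singleton] at e1 e2
    simp only [hK, Finset.sum_singleton] at e3
    simp only [zero_mul, Cov.shift_zero] at e1 e2 e3
    unfold TwoF.wedge pullM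
    simp only [e1, e2, e3]
  · obtain ⟨e1, e2, e3⟩ := D.curv_zero P hs he hx
    simp [TwoF.wedge, e1, e2, e3]

end CycCover

end Vale.Agent.P267.H431
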