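import Vale.Agent.P267.H431.LB5
import Vale.Agent.P267.H995.WForm
import Vale.Agent.P267.H283.Elk

/-!
# P267, package LIFT-LB (helper431), part 6: the lift of a line bundle, given the lift of its cocycle
-/

set_option linter.unusedSectionVars false

open Set Filter Topology Metric Function
open scoped Manifold ContDiff

noncomputable section

namespace Vale.Agent.P267.H431

open Vale.Agent.P267.H368 Vale.Agent.P267.H158 Vale.Agent.P267.H82 Vale.Agent.P267.H995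
  Vale.Agent.P267.FL Vale.Agent.P267.H533 Vale.Agent.P267.BlockC Vale.Agent.P267.RR

theorem exactTwo_of_exact2 {M : Type*} [TopologicalSpace M] [ChartedSpace C2 M] {B : TwoF M}
    (hB : Exact2 B) : ExactTwo B := by
  obtain ⟨θ, h1, h2⟩ := hB
  exact ⟨θ, h1, h2.symm⟩

variable {F : Type*} [NormedAddCommGroup F] [InnerProductSpace ℝ F] {X : Type}
  [TopologicalSpace X] [ChartedSpace C2 X] {A : C2 ≃L[ℝ] F}

namespace CycCover

variable {G : GoodCover X A} {h : C(X, UnitAddCircle)} (D : CycCover G h)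
  [IsManifold 𝓘(ℂ, C2) ω X] (P : PartUnity G) {m : ℕ} [NeZero m]

/-- `z` is the periodic pull-back of an integral cocycle `n` of the nerve of the `m`-fold cover,
with `curv L = -2πi W(n) + dθ` -/
def Nv (m : ℕ) [NeZero m] (L : ALB (CovM h m))
    (z : Fin G.n × ℤ → Fin G.n × ℤ → Fin G.n × ℤ → ℤ) : Prop :=
  ∃ n : Fin G.n × ZMod m → Fin G.n × ZMod m → Fin G.n × ZMod m → ℤ,
    IsCoc (fun α : Fin G.n × ZMod m => D.UM m α.1 α.2) n ∧
    Exact2 (L.L.curv - (-(2 * Real.pi * Complex.I : ℂ)) •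
      (D.sqM P m).toPart.W fun a b c => (n a b c : ℂ)) ∧ z = pullC n

theorem Nv.per {L : ALB (CovM h m)} {z : Fin G.n × ℤ → Fin G.n × ℤ → Fin G.n × ℤ → ℤ}
    (hz : D.Nv P m L z) (a b c : Fin G.n × ℤ) : z (sh m a) (sh m b) (sh m c) = z a b c := by
  obtain ⟨n, -, -, rfl⟩ := hz
  exact pullC_sh n a b c

theorem Nv.coc {L : ALB (CovM h m)} {z : Fin G.n × ℤ → Fin G.n × ℤ → Fin G.n × ℤ → ℤ}
    (hz : D.Nv P m L z) (a b c d : Fin G.n × ℤ) (H : D.tet4 a b c d) :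
    z b c d - z a c d + z a b d - z a b c = 0 := by
  obtain ⟨n, hn, -, rfl⟩ := hz
  exact D.pullC_coc hn a b c d H

/-- the curvatures of `L` and of the line bundle of `wrap e` differ by an exact form -/
theorem exact_sub_lbM {L : ALB (CovM h m)}
    {n : Fin G.n × ZMod m → Fin G.n × ZMod m → Fin G.n × ZMod m → ℤ}
    (hL : Exact2 (L.L.curv - (-(2 * Real.pi * Complex.I : ℂ)) •
      (D.sqM P m).toPart.W fun a b c => (n a b c : ℂ)))
    {s : Finset (Fin G.n × ℤ)} {β : Fin G.n × ℤ → Fin G.n × ℤ → ℝ}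
    {e : Fin G.n × ℤ → Fin G.n × ℤ → Fin G.n × ℤ → ℤ}
    (hβ : ∀ a b, β (sh m a) (sh m b) = β a b)
    (hs : ∀ a b c, e a b c ≠ 0 → D.tri3 a b c ∧ a ∈ s ∧ b ∈ s ∧ c ∈ s)
    (he : ∀ a b c, D.tri3 a b c → ∃ k : ℤ,
      ((e (sh (k * m) a) (sh (k * m) b) (sh (k * m) c) : ℤ) : ℝ)
        = pullC n a b c + (β b c - β a c + β a b) ∧
      ∀ k' : ℤ, k' ≠ k → e (sh (k' * m) a) (sh (k' * m) b) (sh (k' * m) c) = 0)
    (hw : IsCoc (D.sqM P m).U (wrap m s e)) :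
    Exact2 (L.L.curv - (D.lbM P _ hw).L.curv) := by
  have h1 : (D.lbM P _ hw).L.curv = (-(2 * Real.pi * Complex.I : ℂ)) •
      (D.sqM P m).toPart.W fun a b c => ((wrap m s e a b c : ℤ) : ℂ) :=
    SqPart.curv_lb hw
  have h2 : (D.sqM P m).toPart.W (fun a b c => ((wrap m s e a b c : ℤ) : ℂ)) =
      (D.sqM P m).toPart.W (fun a b c => (n a b c : ℂ)) + (D.sqM P m).toPart.W
        (fun a b c => ((D.descC m β b c : ℝ) : ℂ) - ((D.descC m β a c : ℝ) : ℂ) +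
          ((D.descC m β a b : ℝ) : ℂ)) := by
    rw [← Part.W_add]
    refine (D.sqM P m).toPart.W_congr fun a b c x ha hb hc => ?_
    have h3 := D.wrap_eq_add hβ hs he (α := a) (α' := b) (α'' := c) (w := x) ha hb hc
    have h4 : (((wrap m s e a b c : ℤ) : ℝ) : ℂ) = ((n a b c + (D.descC m β b c -
        D.descC m β a c + D.descC m β a b) : ℝ) : ℂ) := by rw [h3]
    push_cast at h4
    exact h4
  have h5 := (Part.exact_W_coboundary (D.sqM P m).toPart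
    fun a b => ((D.descC m β a b : ℝ) : ℂ)).smul (2 * Real.pi * Complex.I : ℂ)
  have h6 : L.L.curv - (D.lbM P _ hw).L.curv = (L.L.curv - (-(2 * Real.pi * Complex.I : ℂ)) •
      (D.sqM P m).toPart.W fun a b c => (n a b c : ℂ)) + (2 * Real.pi * Complex.I : ℂ) •
      (D.sqM P m).toPart.W
        (fun a b c => ((D.descC m β b c : ℝ) : ℂ) - ((D.descC m β a c : ℝ) : ℂ) +
          ((D.descC m β a b : ℝ) : ℂ)) := by
    rw [h1, h2, smul_add, neg_smul, neg_smul]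
    abel
  rw [h6]
  exact hL.add h5

/-- **LIFT-LB.** -/
theorem exists_lift [T2Space X] [CompactSpace X] (HF : FormFacts (CovM h m)) {L : ALB (CovM h m)}
    {n : Fin G.n × ZMod m → Fin G.n × ZMod m → Fin G.n × ZMod m → ℤ}
    (hn : IsCoc (fun α : Fin G.n × ZMod m => D.UM m α.1 α.2) n)
    (hL : Exact2 (L.L.curv - (-(2 * Real.pi * Complex.I : ℂ)) •
      (D.sqM P m).toPart.W fun a b c => (n a b c : ℂ)))
    {s : Finset (Fin G.n × ℤ)} {β : Fin G.n × ℤ → Fin G.n × ℤ → ℝ}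
    {e : Fin G.n × ℤ → Fin G.n × ℤ → Fin G.n × ℤ → ℤ}
    (hβ : ∀ a b, β (sh m a) (sh m b) = β a b)
    (hcoc : ∀ a b c d, D.tet4 a b c d → e b c d - e a c d + e a b d - e a b c = 0)
    (hs : ∀ a b c, e a b c ≠ 0 → D.tri3 a b c ∧ a ∈ s ∧ b ∈ s ∧ c ∈ s)
    (hlev : ∀ a ∈ s, ∀ b ∈ s, |b.2 - a.2| + D.wd < m)
    (he : ∀ a b c, D.tri3 a b c → ∃ k : ℤ,
      ((e (sh (k * m) a) (sh (k * m) b) (sh (k * m) c) : ℤ) : ℝ)
        = pullC n a b c + (β b c - β a c + β a b) ∧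
      ∀ k' : ℤ, k' ≠ k → e (sh (k' * m) a) (sh (k' * m) b) (sh (k' * m) c) = 0) :
    ∃ (E : ALB (Cov h)) (i₀ : E.ι) (R : ℝ), EndTriv h E i₀ R ∧ isec E.L E.L = isec L.L L.L ∧
      ∀ B : TwoF (CovM h m), B.Smooth → B.Closed → pair B L.L.curv = pair (pullM m B) E.L.curv := by
  have hw : IsCoc (D.sqM P m).U (wrap m s e) := D.wrap_coc hn hβ hs he
  have hs' : ∀ a b c, e a b c ≠ 0 → a ∈ s ∧ b ∈ s ∧ c ∈ s := fun a b c hne => (hs a b c hne).2
  have h3 : ∀ a b c, e a b c ≠ 0 → D.tri3 a b c := fun a b c hne => (hs a b c hne).1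
  have hex : ExactTwo (L.L.curv - (D.lbM P _ hw).L.curv) :=
    exactTwo_of_exact2 (D.exact_sub_lbM P hL hβ hs he hw)
  have hpair : ∀ B : TwoF (CovM h m), B.Smooth → B.Closed →
      pair B L.L.curv = pair B (D.lbM P _ hw).L.curv := by
    intro B hB hB'
    obtain ⟨θ, hθ, hθ'⟩ := hex
    have h4 : L.L.curv = θ.d + (D.lbM P _ hw).L.curv := by rw [hθ']; abel
    rw [BlockC.pair_comm, h4, HF.pair_add _ _ _ (HF.smooth_d θ hθ) (HF.curv_smooth (D.lbM P _ hw)) hB,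
      HF.pair_d θ B hθ hB hB', zero_add, BlockC.pair_comm]
  refine ⟨D.lbE P s e hs' hcoc, (Sum.inl none : Ix G s), D.rr s, D.endTriv_lbE P hs' hcoc,
    ?_, fun B hB hB' => ?_⟩
  · rw [isec_eq, isec_eq, ← D.pair_self P hs' hcoc h3 hw hlev]
    congr 1
    rw [hpair _ (HF.curv_smooth L) (HF.curv_closed L), BlockC.pair_comm L.L.curv,
      hpair _ (HF.curv_smooth (D.lbM P _ hw)) (HF.curv_closed (D.lbM P _ hw))]
  · rw [hpair B hB hB', D.pair_toM P hs' hcoc h3 hw hB]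

/-- **LIFT-LB**, in the form consumed by helper82 (`PNerve.lift`). -/
theorem exists_lift_nerve [T2Space X] [CompactSpace X]
    (HF : ∀ (M : ℕ) [NeZero M], FormFacts (CovM h M)) :
    ∃ l₀ : ℕ, D.nerve.w ≤ l₀ ∧ ∀ (M : ℕ) [NeZero M], 2 * l₀ < M → ∀ (L : ALB (CovM h M))
      (z : Fin G.n × ℤ → Fin G.n × ℤ → Fin G.n × ℤ → ℤ), D.Nv P M L z → ∀ (j : ℤ)
      (β : Fin G.n × ℤ → Fin G.n × ℤ → ℝ) (e : Fin G.n × ℤ → Fin G.n × ℤ → Fin G.n × ℤ → ℤ),
      (∀ a b, β (sh M a) (sh M b) = β a b) →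
      (∀ a b c d, D.tet4 a b c d → e b c d - e a c d + e a b d - e a b c = 0) →
      (∀ a b c, e a b c ≠ 0 → D.nerve.T a b c ∧
        (j + l₀ - D.nerve.w < a.2 ∧ a.2 < j + M - l₀ + D.nerve.w) ∧
        (j + l₀ - D.nerve.w < b.2 ∧ b.2 < j + M - l₀ + D.nerve.w) ∧
        (j + l₀ - D.nerve.w < c.2 ∧ c.2 < j + M - l₀ + D.nerve.w)) →
      (∀ a b c, D.nerve.T a b c → ∃ k : ℤ,
        ((e (sh (k * M) a) (sh (k * M) b) (sh (k * M) c) : ℤ) : ℝ)
          = z a b c + (β b c - β a c + β a b) ∧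
        ∀ k' : ℤ, k' ≠ k → e (sh (k' * M) a) (sh (k' * M) b) (sh (k' * M) c) = 0) →
      ∃ (E : ALB (Cov h)) (i₀ : E.ι) (R : ℝ), EndTriv h E i₀ R ∧ isec E.L E.L = isec L.L L.L ∧
        ∀ B : TwoF (CovM h M), B.Smooth → B.Closed →
          pair B L.L.curv = pair (pullM M B) E.L.curv := by
  refine ⟨2 * D.wd, by rw [D.nerve_w]; omega, ?_⟩
  intro M hM hlM L z hz j β e hβ hcoc hsupp hsum
  obtain ⟨n, hn, hL, rfl⟩ := hz
  simp only [D.nerve_w, D.nerve_T] at hsupp hsum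
  set s : Finset (Fin G.n × ℤ) := Finset.univ ×ˢ
    Finset.Ioo (j + (2 * D.wd : ℕ) - D.wd) (j + M - (2 * D.wd : ℕ) + D.wd) with hsdef
  have hmem : ∀ a : Fin G.n × ℤ, a ∈ s ↔
      j + (2 * D.wd : ℕ) - D.wd < a.2 ∧ a.2 < j + M - (2 * D.wd : ℕ) + D.wd := by
    intro a
    rw [hsdef, Finset.mem_product, Finset.mem_Ioo]
    simp
  refine D.exists_lift P (HF M) hn hL (s := s) hβ hcoc (fun a b c hne => ?_) ?_ hsum
  · obtain ⟨h1, h2, h3, h4⟩ := hsupp a b c hne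
    exact ⟨h1, (hmem a).2 h2, (hmem b).2 h3, (hmem c).2 h4⟩
  · intro a ha b hb
    rw [hmem] at ha hb
    have h1 : |b.2 - a.2| ≤ M - 2 * D.wd - 2 := by
      rw [abs_le]
      constructor <;> omega
    have h2 : (0 : ℤ) ≤ D.wd := by positivity
    omega

end CycCover

end Vale.Agent.P267.H431
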